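import Mathlib
import Vale.Agent.P036.Core

namespace Vale.Agent.Results.P036.Heilbronn

/-- Area of the triangle `pqr`: half the absolute value of `det (q - p, r - p)`. -/
noncomputable def area (p q r : ℝ × ℝ) : ℝ :=
  |(q.1 - p.1) * (r.2 - p.2) - (r.1 - p.1) * (q.2 - p.2)| / 2

/-- The least area of a triangle spanned by three distinct points of `P`. -/
noncomputable def minArea (P : Finset (ℝ × ℝ)) : ℝ :=
  sInf {a | ∃ p ∈ P, ∃ q ∈ P, ∃ r ∈ P, p ≠ q ∧ p ≠ r ∧ q ≠ r ∧ a = area p q r}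

/-- Heilbronn's function: the largest value of `minArea P` over `n`-point sets in the unit square. -/
noncomputable def Delta (n : ℕ) : ℝ :=
  sSup {a | ∃ P : Finset (ℝ × ℝ), P.card = n ∧
    (∀ p ∈ P, (0 ≤ p.1 ∧ p.1 ≤ 1) ∧ 0 ≤ p.2 ∧ p.2 ≤ 1) ∧ a = minArea P}

lemma bdd (P : Finset (ℝ × ℝ)) :
    BddBelow {a | ∃ p ∈ P, ∃ q ∈ P, ∃ r ∈ P, p ≠ q ∧ p ≠ r ∧ q ≠ r ∧ a = area p q r} := by
  refine ⟨0, ?_⟩
  rintro a ⟨p, -, q, -, r, -, -, -, -, rfl⟩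
  unfold area; positivity

lemma bdd' {n : ℕ} (hn : 3 ≤ n) : BddAbove {a | ∃ P : Finset (ℝ × ℝ), P.card = n ∧
    (∀ p ∈ P, (0 ≤ p.1 ∧ p.1 ≤ 1) ∧ 0 ≤ p.2 ∧ p.2 ≤ 1) ∧ a = minArea P} := by
  refine ⟨1, ?_⟩
  rintro a ⟨P, hP, h, rfl⟩
  obtain ⟨p, hp, q, hq, r, hr, h1, h2, h3⟩ := Finset.two_lt_card.1 (by omega : 2 < P.card)
  refine (csInf_le (bdd P) ⟨p, hp, q, hq, r, hr, h1, h2, h3, rfl⟩).trans ?_
  obtain ⟨⟨a1, a2⟩, a3, a4⟩ := h p hp
  obtain ⟨⟨b1, b2⟩, b3, b4⟩ := h q hq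
  obtain ⟨⟨c1, c2⟩, c3, c4⟩ := h r hr
  have k : ∀ x y : ℝ, |x| ≤ 1 → |y| ≤ 1 → |x * y| ≤ 1 := fun x y hx hy => by
    rw [abs_mul]; exact mul_le_one₀ hx (abs_nonneg _) hy
  have e1 := k (q.1 - p.1) (r.2 - p.2) (abs_le.2 ⟨by linarith, by linarith⟩)
    (abs_le.2 ⟨by linarith, by linarith⟩)
  have e2 := k (r.1 - p.1) (q.2 - p.2) (abs_le.2 ⟨by linarith, by linarith⟩)
    (abs_le.2 ⟨by linarith, by linarith⟩)
  have := abs_sub ((q.1 - p.1) * (r.2 - p.2)) ((r.1 - p.1) * (q.2 - p.2))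
  unfold area; linarith

lemma lower : ∃ η c : ℝ, 0 < η ∧ 0 < c ∧ ∀ n : ℕ, 3 ≤ n → c * (n : ℝ) ^ (-2 + η) ≤ Delta n := by
  classical
  obtain ⟨η, c, hη, hc, h⟩ := Vale.Agent.P036.planar
  refine ⟨η, c, hη, hc, fun n hn => ?_⟩
  obtain ⟨p, h1, h2⟩ := h n hn
  have n0 : (0 : ℝ) < n := by exact_mod_cast (by omega : 0 < n)
  have pos : 0 < c * (n : ℝ) ^ (-2 + η) := by positivity
  have inj : Function.Injective p := by
    intro i j e
    by_contra hij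
    obtain ⟨k, hk⟩ : ∃ k, k ∉ ({i, j} : Finset (Fin n)) := by
      by_contra hc
      push Not at hc
      have := Finset.card_le_card (fun k _ => hc k : Finset.univ ⊆ ({i, j} : Finset (Fin n)))
      have := Finset.card_le_two (a := i) (b := j)
      simp only [Finset.card_univ, Fintype.card_fin] at *
      omega
    simp only [Finset.mem_insert, Finset.mem_singleton, not_or] at hk
    have := h2 i j k hij (Ne.symm hk.1) (Ne.symm hk.2)
    rw [e] at this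
    simp only [sub_self, zero_mul, mul_zero, abs_zero, zero_div] at this
    linarith
  have cP : (Finset.univ.image p).card = n := by
    rw [Finset.card_image_of_injective _ inj]; simp
  refine le_trans ?_ (le_csSup (bdd' hn) ⟨Finset.univ.image p, cP, fun x hx => ?_, rfl⟩)
  · obtain ⟨a, ha, b, hb, d, hd, k1, k2, k3⟩ :=
      Finset.two_lt_card.1 (by omega : 2 < (Finset.univ.image p).card)
    refine le_csInf ⟨_, a, ha, b, hb, d, hd, k1, k2, k3, rfl⟩ ?_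
    rintro _ ⟨a, ha, b, hb, d, hd, k1, k2, k3, rfl⟩
    obtain ⟨i, -, rfl⟩ := Finset.mem_image.1 ha
    obtain ⟨j, -, rfl⟩ := Finset.mem_image.1 hb
    obtain ⟨k, -, rfl⟩ := Finset.mem_image.1 hd
    exact h2 i j k (fun e => k1 (by rw [e])) (fun e => k2 (by rw [e])) (fun e => k3 (by rw [e]))
  · obtain ⟨i, -, rfl⟩ := Finset.mem_image.1 hx
    exact h1 i

theorem result :
    (∃ η c : ℝ, 0 < η ∧ 0 < c ∧ ∀ n : ℕ, 3 ≤ n → c * (n : ℝ) ^ (-2 + η) ≤ Delta n) ∧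
    ¬ (∀ ε : ℝ, 0 < ε → ∃ (C : ℝ) (n₀ : ℕ), ∀ n : ℕ, n₀ ≤ n → Delta n ≤ C * (n : ℝ) ^ (-2 + ε)) := by
  refine ⟨lower, fun H => ?_⟩
  obtain ⟨η, c, hη, hc, h⟩ := lower
  obtain ⟨C, n₀, hC⟩ := H (η / 2) (by linarith)
  have t : Filter.Tendsto (fun n : ℕ => (n : ℝ) ^ (η / 2)) Filter.atTop Filter.atTop :=
    (tendsto_rpow_atTop (by linarith)).comp tendsto_natCast_atTop_atTop
  obtain ⟨n, h1, h2, h3⟩ := ((t.eventually_gt_atTop (C / c)).and
    ((Filter.eventually_ge_atTop n₀).and (Filter.eventually_ge_atTop 3))).exists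
  have n0 : (0 : ℝ) < n := by exact_mod_cast (by omega : 0 < n)
  have a := (h n h3).trans (hC n h2)
  rw [show -2 + η = η / 2 + (-2 + η / 2) by ring, Real.rpow_add n0, ← mul_assoc] at a
  have b := le_of_mul_le_mul_right a (by positivity)
  rw [div_lt_iff₀ hc] at h1
  linarith

end Vale.Agent.Results.P036.Heilbronn
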